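import Mathlib
import Vale.Agent.Lib.P227.Defs
import Vale.Agent.Lib.P227.Segment
import Vale.Agent.Lib.P227.helper52.PLw
import Vale.Agent.Lib.P227.helper98.Fibre

/-!
# P227: pairs of bodies whose sections are dilates of fixed shapes

If every section `{x_0 = t}` of `K` is empty or a dilate of `A`, every section of `L` is empty
or a dilate of `B`, both bodies are invariant under the reflection of the first coordinate, and
the logarithmic Brunn-Minkowski inequality holds for the pair `(A, B)`, then it holds for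
`(K, L)`. For `A = B` the hypothesis on the pair is automatic.
-/

namespace Vale.Agent.Lib.P227

open MeasureTheory Set
open scoped ENNReal Pointwise

section Scaling

variable {E : Type*} [NormedAddCommGroup E] [InnerProductSpace ℝ E]

/-- The support function of a dilate of a set. -/
theorem h61_supportFn_smul_set (A : Set E) {a : ℝ} (ha : 0 ≤ a) (u : E) :
    supportFn (a • A) u = a * supportFn A u := by
  unfold supportFn
  have e : (fun x : E => inner ℝ x u) '' (a • A) = a • ((fun x : E => inner ℝ x u) '' A) := by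
    ext y
    constructor
    · rintro ⟨x, ⟨z, hz, rfl⟩, rfl⟩
      exact ⟨inner ℝ z u, ⟨z, hz, rfl⟩, by simp [real_inner_smul_left]⟩
    · rintro ⟨w, ⟨z, hz, rfl⟩, rfl⟩
      exact ⟨a • z, ⟨z, hz, rfl⟩, by simp [real_inner_smul_left]⟩
  rw [e, Real.sSup_smul_of_nonneg ha]
  rfl

/-- The logarithmic combination of two dilates contains the corresponding dilate of the
logarithmic combination. -/
theorem h61_smul_logSum_subset {A B : Set E} {lam : ℝ} {a b : ℝ} (ha : 0 ≤ a) (hb : 0 ≤ b)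
    (hA0 : ∀ u, 0 ≤ supportFn A u) (hB0 : ∀ u, 0 ≤ supportFn B u) :
    (a ^ (1 - lam) * b ^ lam) • logSum lam A B ⊆ logSum lam (a • A) (b • B) := by
  rintro x ⟨z, hz, rfl⟩ u hu
  show inner ℝ ((a ^ (1 - lam) * b ^ lam) • z) u
    ≤ supportFn (a • A) u ^ (1 - lam) * supportFn (b • B) u ^ lam
  rw [h61_supportFn_smul_set A ha, h61_supportFn_smul_set B hb, Real.mul_rpow ha (hA0 u),
    Real.mul_rpow hb (hB0 u), real_inner_smul_left]
  have hz' : inner ℝ z u ≤ supportFn A u ^ (1 - lam) * supportFn B u ^ lam := hz u hu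
  have hc : 0 ≤ a ^ (1 - lam) * b ^ lam :=
    mul_nonneg (Real.rpow_nonneg ha _) (Real.rpow_nonneg hb _)
  calc (a ^ (1 - lam) * b ^ lam) * inner ℝ z u
      ≤ (a ^ (1 - lam) * b ^ lam) * (supportFn A u ^ (1 - lam) * supportFn B u ^ lam) :=
        mul_le_mul_of_nonneg_left hz' hc
    _ = _ := by ring

/-- A compact set containing the origin is contained in its logarithmic combination
with itself. -/
theorem h61_subset_logSum_self {A : Set E} (hA : IsCompact A) (hA0 : (0 : E) ∈ A) {lam : ℝ} :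
    A ⊆ logSum lam A A := by
  intro y hy u _
  show inner ℝ y u ≤ supportFn A u ^ (1 - lam) * supportFn A u ^ lam
  have h := supportFn_nonneg hA hA0 u
  rw [← Real.rpow_add' h (by norm_num : (1 - lam) + lam ≠ 0)]
  have e : (1 - lam) + lam = 1 := by ring
  rw [e, Real.rpow_one]
  exact inner_le_supportFn hA hy u

end Scaling

/-- Volume of a dilate in `R^n`. -/
theorem h61_volume_smul {n : ℕ} (c : ℝ) (hc : 0 ≤ c) (S : Set (EuclideanSpace ℝ (Fin n))) :
    volume (c • S) = ENNReal.ofReal (c ^ n) * volume S := by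
  rw [Measure.addHaar_smul, finrank_euclideanSpace_fin, abs_of_nonneg (pow_nonneg hc n)]

/-- The inequality for a pair passes to all pairs of nonnegative dilates. -/
theorem h61_dilate_ineq {n : ℕ} {lam : ℝ} (h0 : 0 < lam) (h1 : lam < 1)
    {A B : Set (EuclideanSpace ℝ (Fin n))}
    (hA0 : ∀ u, 0 ≤ supportFn A u) (hB0 : ∀ u, 0 ≤ supportFn B u)
    (hAB : volume A ^ (1 - lam) * volume B ^ lam ≤ volume (logSum lam A B))
    {a b : ℝ} (ha : 0 ≤ a) (hb : 0 ≤ b) :
    volume (a • A) ^ (1 - lam) * volume (b • B) ^ lam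
      ≤ volume (logSum lam (a • A) (b • B)) := by
  have hmu : 0 < 1 - lam := by linarith
  have hc0 : 0 ≤ a ^ (1 - lam) * b ^ lam :=
    mul_nonneg (Real.rpow_nonneg ha _) (Real.rpow_nonneg hb _)
  have hsub := h61_smul_logSum_subset (lam := lam) ha hb hA0 hB0
  have e0 : (a ^ n) ^ (1 - lam) * (b ^ n) ^ lam = (a ^ (1 - lam) * b ^ lam) ^ n := by
    rw [mul_pow, ← Real.rpow_natCast (a ^ (1 - lam)), ← Real.rpow_natCast (b ^ lam),
      ← Real.rpow_mul ha, ← Real.rpow_mul hb, ← Real.rpow_natCast a, ← Real.rpow_natCast b,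
      ← Real.rpow_mul ha, ← Real.rpow_mul hb, mul_comm (n : ℝ), mul_comm (n : ℝ)]
  have e1 : ENNReal.ofReal (a ^ n) ^ (1 - lam) * ENNReal.ofReal (b ^ n) ^ lam =
      ENNReal.ofReal ((a ^ (1 - lam) * b ^ lam) ^ n) := by
    rw [ENNReal.ofReal_rpow_of_nonneg (pow_nonneg ha n) hmu.le,
      ENNReal.ofReal_rpow_of_nonneg (pow_nonneg hb n) h0.le,
      ← ENNReal.ofReal_mul (Real.rpow_nonneg (pow_nonneg ha n) _), e0]
  calc volume (a • A) ^ (1 - lam) * volume (b • B) ^ lam
      = (ENNReal.ofReal (a ^ n) ^ (1 - lam) * ENNReal.ofReal (b ^ n) ^ lam)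
          * (volume A ^ (1 - lam) * volume B ^ lam) := by
        rw [h61_volume_smul a ha, h61_volume_smul b hb,
          ENNReal.mul_rpow_of_nonneg _ _ hmu.le, ENNReal.mul_rpow_of_nonneg _ _ h0.le]
        ring
    _ ≤ ENNReal.ofReal ((a ^ (1 - lam) * b ^ lam) ^ n) * volume (logSum lam A B) := by
        rw [e1]
        exact mul_le_mul' le_rfl hAB
    _ = volume ((a ^ (1 - lam) * b ^ lam) • logSum lam A B) :=
        (h61_volume_smul _ hc0 _).symm
    _ ≤ volume (logSum lam (a • A) (b • B)) := measure_mono hsub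

/-- Profile bodies over a pair of shapes: if the sections of `K` are empty or dilates of `A`,
those of `L` are empty or dilates of `B`, and the inequality holds for `(A, B)`, then it
holds for `(K, L)`. -/
theorem h61_logBM_profile_pair {n : ℕ} {lam : ℝ} (h0 : 0 ≤ lam) (h1 : lam ≤ 1)
    {A B : Set (EuclideanSpace ℝ (Fin n))}
    (hA : IsCompact A) (hA0 : (0 : EuclideanSpace ℝ (Fin n)) ∈ A)
    (hB : IsCompact B) (hB0 : (0 : EuclideanSpace ℝ (Fin n)) ∈ B)
    (hAB : volume A ^ (1 - lam) * volume B ^ lam ≤ volume (logSum lam A B))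
    {K L : Set (EuclideanSpace ℝ (Fin (n + 1)))}
    (hKc : Convex ℝ K) (hK : IsCompact K) (hKs : ∀ x ∈ K, -x ∈ K)
    (hKr : ∀ t w, ecomb t w ∈ K → ecomb (-t) w ∈ K)
    (hKsec : ∀ t : ℝ, sec t K = ∅ ∨ ∃ a : ℝ, 0 ≤ a ∧ sec t K = a • A)
    (hLc : Convex ℝ L) (hL : IsCompact L) (hLs : ∀ x ∈ L, -x ∈ L)
    (hLr : ∀ t w, ecomb t w ∈ L → ecomb (-t) w ∈ L)
    (hLsec : ∀ t : ℝ, sec t L = ∅ ∨ ∃ b : ℝ, 0 ≤ b ∧ sec t L = b • B) :
    volume K ^ (1 - lam) * volume L ^ lam ≤ volume (logSum lam K L) := by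
  rcases h0.eq_or_lt with h0' | h0'
  · subst h0'
    rw [sub_zero, ENNReal.rpow_one, ENNReal.rpow_zero, mul_one]
    exact measure_mono (subset_logSum_zero hK L)
  rcases h1.eq_or_lt with h1' | h1'
  · subst h1'
    rw [sub_self, ENNReal.rpow_one, ENNReal.rpow_zero, one_mul]
    exact measure_mono (subset_logSum_one K hL)
  refine logBM_fibre h0' h1'
    (fun F G H hF hG hH hFGH => pl_mul lam h0' h1' F G H hF hG hH hFGH)
    ?_ hKc hK hKs hKr hLc hL hLs hLr
  intro t s _ _ hAint hBint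
  rcases hKsec t with hKe | ⟨a, ha, hKa⟩
  · rw [hKe, interior_empty] at hAint
    exact absurd hAint Set.not_nonempty_empty
  rcases hLsec s with hLe | ⟨b, hb, hLb⟩
  · rw [hLe, interior_empty] at hBint
    exact absurd hBint Set.not_nonempty_empty
  rw [hKa, hLb]
  exact h61_dilate_ineq h0' h1' (fun u => supportFn_nonneg hA hA0 u)
    (fun u => supportFn_nonneg hB hB0 u) hAB ha hb

/-- The inequality for the pair `(A, A)`. -/
theorem h61_logBM_self {n : ℕ} {lam : ℝ} (h0 : 0 ≤ lam) (h1 : lam ≤ 1)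
    {A : Set (EuclideanSpace ℝ (Fin n))}
    (hA : IsCompact A) (hA0 : (0 : EuclideanSpace ℝ (Fin n)) ∈ A) :
    volume A ^ (1 - lam) * volume A ^ lam ≤ volume (logSum lam A A) := by
  rw [← ENNReal.rpow_add_of_nonneg _ _ (by linarith) h0]
  have e : (1 - lam) + lam = 1 := by ring
  rw [e, ENNReal.rpow_one]
  exact measure_mono (h61_subset_logSum_self hA hA0)

/-- Profile bodies over a common shape, with the section condition written without
auxiliary definitions. -/
theorem h61_logBM_profile {n : ℕ} {lam : ℝ} (h0 : 0 ≤ lam) (h1 : lam ≤ 1)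
    {A : Set (EuclideanSpace ℝ (Fin n))}
    (hA : IsCompact A) (hA0 : (0 : EuclideanSpace ℝ (Fin n)) ∈ A)
    {K L : Set (EuclideanSpace ℝ (Fin (n + 1)))}
    (hKc : Convex ℝ K) (hK : IsCompact K) (hKs : ∀ x ∈ K, -x ∈ K)
    (hKr : ∀ x ∈ K, x - (2 * x 0) • EuclideanSpace.single (0 : Fin (n + 1)) (1 : ℝ) ∈ K)
    (hKsec : ∀ t : ℝ, (∀ x ∈ K, x 0 ≠ t) ∨ ∃ a : ℝ, 0 ≤ a ∧
      ∀ x : EuclideanSpace ℝ (Fin (n + 1)), x 0 = t →
        (x ∈ K ↔ (WithLp.toLp 2 (fun i : Fin n => x i.succ) : EuclideanSpace ℝ (Fin n)) ∈ a • A))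
    (hLc : Convex ℝ L) (hL : IsCompact L) (hLs : ∀ x ∈ L, -x ∈ L)
    (hLr : ∀ x ∈ L, x - (2 * x 0) • EuclideanSpace.single (0 : Fin (n + 1)) (1 : ℝ) ∈ L)
    (hLsec : ∀ t : ℝ, (∀ x ∈ L, x 0 ≠ t) ∨ ∃ b : ℝ, 0 ≤ b ∧
      ∀ x : EuclideanSpace ℝ (Fin (n + 1)), x 0 = t →
        (x ∈ L ↔ (WithLp.toLp 2 (fun i : Fin n => x i.succ) : EuclideanSpace ℝ (Fin n)) ∈ b • A)) :
    volume K ^ (1 - lam) * volume L ^ lam ≤ volume (logSum lam K L) := by
  have conv : ∀ M : Set (EuclideanSpace ℝ (Fin (n + 1))),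
      (∀ t : ℝ, (∀ x ∈ M, x 0 ≠ t) ∨ ∃ a : ℝ, 0 ≤ a ∧
        ∀ x : EuclideanSpace ℝ (Fin (n + 1)), x 0 = t →
          (x ∈ M ↔ (WithLp.toLp 2 (fun i : Fin n => x i.succ) : EuclideanSpace ℝ (Fin n))
            ∈ a • A)) →
      ∀ t : ℝ, sec t M = ∅ ∨ ∃ a : ℝ, 0 ≤ a ∧ sec t M = a • A := by
    intro M hM t
    rcases hM t with hne | ⟨a, ha, h⟩
    · left
      ext w
      simp only [mem_empty_iff_false, iff_false]
      intro hw
      exact hne (ecomb t w) hw (ecomb_zero t w)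
    · right
      refine ⟨a, ha, ?_⟩
      ext w
      have h2 := h (ecomb t w) (ecomb_zero t w)
      have e : (WithLp.toLp 2 (fun i : Fin n => (ecomb t w) i.succ) : EuclideanSpace ℝ (Fin n))
          = w := etail_ecomb t w
      rw [e] at h2
      exact h2
  have refl : ∀ M : Set (EuclideanSpace ℝ (Fin (n + 1))),
      (∀ x ∈ M, x - (2 * x 0) • EuclideanSpace.single (0 : Fin (n + 1)) (1 : ℝ) ∈ M) →
      ∀ t w, ecomb t w ∈ M → ecomb (-t) w ∈ M := by
    intro M hM t w h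
    have h2 := hM _ h
    rw [reflect_ecomb] at h2
    exact h2
  exact h61_logBM_profile_pair h0 h1 hA hA0 hA hA0 (h61_logBM_self h0 h1 hA hA0)
    hKc hK hKs (refl K hKr) (conv K hKsec) hLc hL hLs (refl L hLr) (conv L hLsec)

end Vale.Agent.Lib.P227
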