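import Mathlib
import Vale.Agent.Lib.P227.Defs
import Vale.Agent.Lib.P227.Segment
import Vale.Agent.Lib.P227.helper52.PLw
import Vale.Agent.Lib.P227.helper98.Fibre
import Vale.Agent.Lib.P227.helper61.Profile

/-!
# P227: bodies with `k` coordinate reflections whose sections are dilates of a fixed shape

`K` and `L` are origin-symmetric compact convex sets in `R^(n+k)`, invariant under the
reflections of the first `k` coordinates, and every section of `K` (of `L`) obtained by
fixing the first `k` coordinates is empty or a nonnegative dilate of `A` (of `B`). If the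
logarithmic Brunn-Minkowski inequality holds for the pair `(A, B)`, it holds for `(K, L)`.
For `A = B` the hypothesis on the pair is automatic. The proof is an induction on `k` with
the fibre lemma `logBM_fibre`.
-/

namespace Vale.Agent.Lib.P227

open MeasureTheory Set
open scoped ENNReal Pointwise

/-- The section condition: every section of `K` in `R^(n+k)` obtained by fixing the first `k`
coordinates is empty or a nonnegative dilate of `A` (in the last `n` coordinates). -/
def H61ProfK (n k : ℕ) (A : Set (EuclideanSpace ℝ (Fin n)))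
    (K : Set (EuclideanSpace ℝ (Fin (n + k)))) : Prop :=
  ∀ x0 : EuclideanSpace ℝ (Fin (n + k)),
    (∀ x ∈ K, ∃ i : Fin (n + k), (i : ℕ) < k ∧ x i ≠ x0 i) ∨
    ∃ a : ℝ, 0 ≤ a ∧ ∀ x : EuclideanSpace ℝ (Fin (n + k)),
      (∀ i : Fin (n + k), (i : ℕ) < k → x i = x0 i) →
      (x ∈ K ↔ (WithLp.toLp 2 (fun j : Fin n => x ⟨k + j, by omega⟩) :
        EuclideanSpace ℝ (Fin n)) ∈ a • A)

/-- For `k = 0` the section condition says that the set is empty or a dilate of `A`. -/
theorem h61_profK_zero {n : ℕ} {A : Set (EuclideanSpace ℝ (Fin n))}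
    {K : Set (EuclideanSpace ℝ (Fin (n + 0)))} (h : H61ProfK n 0 A K) :
    K = ∅ ∨ ∃ a : ℝ, 0 ≤ a ∧ K = a • A := by
  rcases h 0 with hne | ⟨a, ha, h2⟩
  · left
    ext x
    simp only [mem_empty_iff_false, iff_false]
    intro hx
    obtain ⟨i, hi, _⟩ := hne x hx
    exact absurd hi (Nat.not_lt_zero _)
  · right
    refine ⟨a, ha, ?_⟩
    ext x
    have h3 := h2 x (fun i hi => absurd hi (Nat.not_lt_zero _))
    have e : (WithLp.toLp 2 (fun j : Fin n => x ⟨0 + j, by omega⟩) :
        EuclideanSpace ℝ (Fin n)) = x := by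
      ext j
      have e2 : (⟨0 + j, by omega⟩ : Fin (n + 0)) = j := Fin.ext (Nat.zero_add _)
      show x ⟨0 + j, _⟩ = x j
      rw [e2]
    rw [e] at h3
    exact h3

/-- The section condition passes to the sections `{x_0 = t}`. -/
theorem h61_profK_sec {n k : ℕ} {A : Set (EuclideanSpace ℝ (Fin n))}
    {K : Set (EuclideanSpace ℝ (Fin (n + (k + 1))))} (h : H61ProfK n (k + 1) A K) (t : ℝ) :
    H61ProfK n k A (sec (n := n + k) t K) := by
  intro w0
  rcases h (ecomb (n := n + k) t w0) with hne | ⟨a, ha, h2⟩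
  · left
    intro w hw
    obtain ⟨i, hi, hne'⟩ := hne (ecomb (n := n + k) t w) hw
    revert hi hne'
    refine Fin.cases ?_ (fun j => ?_) i
    · intro _ hne'
      exact absurd (by rw [ecomb_zero, ecomb_zero]) hne'
    · intro hi hne'
      rw [ecomb_succ, ecomb_succ] at hne'
      refine ⟨j, ?_, hne'⟩
      have : ((j.succ : Fin (n + k + 1)) : ℕ) = (j : ℕ) + 1 := Fin.val_succ j
      omega
  · right
    refine ⟨a, ha, fun w hw => ?_⟩
    have h3 := h2 (ecomb (n := n + k) t w) (by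
      intro i
      refine Fin.cases ?_ (fun j => ?_) i
      · intro _
        rw [ecomb_zero, ecomb_zero]
      · intro hi
        rw [ecomb_succ, ecomb_succ]
        apply hw
        have : ((j.succ : Fin (n + k + 1)) : ℕ) = (j : ℕ) + 1 := Fin.val_succ j
        omega)
    have e : (WithLp.toLp 2 (fun j : Fin n =>
          (ecomb (n := n + k) t w) ⟨k + 1 + j, by omega⟩) : EuclideanSpace ℝ (Fin n))
        = WithLp.toLp 2 (fun j : Fin n => w ⟨k + j, by omega⟩) := by
      congr 1
      funext j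
      have e2 : (⟨k + 1 + j, by omega⟩ : Fin (n + k + 1))
          = Fin.succ (⟨k + j, by omega⟩ : Fin (n + k)) := by
        apply Fin.ext
        simp only [Fin.val_succ]
        omega
      rw [e2, ecomb_succ]
    rw [e] at h3
    exact h3

/-- The induction on the number `k` of reflections, for `0 < lam < 1`. -/
theorem h61_logBM_profK_aux {n : ℕ} {lam : ℝ} (h0 : 0 < lam) (h1 : lam < 1)
    {A B : Set (EuclideanSpace ℝ (Fin n))}
    (hA : IsCompact A) (hA0 : (0 : EuclideanSpace ℝ (Fin n)) ∈ A)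
    (hB : IsCompact B) (hB0 : (0 : EuclideanSpace ℝ (Fin n)) ∈ B)
    (hAB : volume A ^ (1 - lam) * volume B ^ lam ≤ volume (logSum lam A B)) :
    ∀ (k : ℕ) (K L : Set (EuclideanSpace ℝ (Fin (n + k)))),
      Convex ℝ K → IsCompact K → (∀ x ∈ K, -x ∈ K) →
      (∀ i : Fin (n + k), (i : ℕ) < k →
        ∀ x ∈ K, x - (2 * x i) • EuclideanSpace.single i (1 : ℝ) ∈ K) →
      H61ProfK n k A K →
      Convex ℝ L → IsCompact L → (∀ x ∈ L, -x ∈ L) →
      (∀ i : Fin (n + k), (i : ℕ) < k →
        ∀ x ∈ L, x - (2 * x i) • EuclideanSpace.single i (1 : ℝ) ∈ L) →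
      H61ProfK n k B L →
      volume K ^ (1 - lam) * volume L ^ lam ≤ volume (logSum lam K L) := by
  intro k
  induction k with
  | zero =>
    intro K L _ _ _ _ hKA _ _ _ _ hLB
    rcases h61_profK_zero hKA with hKe | ⟨a, ha, hKa⟩
    · rw [hKe, measure_empty, ENNReal.zero_rpow_of_pos (by linarith), zero_mul]
      exact zero_le
    rcases h61_profK_zero hLB with hLe | ⟨b, hb, hLb⟩
    · rw [hLe, measure_empty, ENNReal.zero_rpow_of_pos h0, mul_zero]
      exact zero_le
    rw [hKa, hLb]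
    exact h61_dilate_ineq h0 h1 (fun u => supportFn_nonneg hA hA0 u)
      (fun u => supportFn_nonneg hB hB0 u) hAB ha hb
  | succ k ih =>
    intro K L hKc hK hKs hKr hKA hLc hL hLs hLr hLB
    have hKr' : ∀ t w, ecomb (n := n + k) t w ∈ K → ecomb (n := n + k) (-t) w ∈ K := by
      intro t w h
      have h2 := hKr 0 (by simp) _ h
      rw [reflect_ecomb] at h2
      exact h2
    have hLr' : ∀ t w, ecomb (n := n + k) t w ∈ L → ecomb (n := n + k) (-t) w ∈ L := by
      intro t w h
      have h2 := hLr 0 (by simp) _ h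
      rw [reflect_ecomb] at h2
      exact h2
    have hKsec : ∀ t : ℝ, ∀ j : Fin (n + k), (j : ℕ) < k →
        ∀ w ∈ sec (n := n + k) t K,
          w - (2 * w j) • EuclideanSpace.single j (1 : ℝ) ∈ sec (n := n + k) t K := by
      intro t j hj w hw
      have h2 := hKr j.succ (by simp only [Fin.val_succ]; omega) _ hw
      rw [ecomb_reflect_succ] at h2
      exact h2
    have hLsec : ∀ t : ℝ, ∀ j : Fin (n + k), (j : ℕ) < k →
        ∀ w ∈ sec (n := n + k) t L,
          w - (2 * w j) • EuclideanSpace.single j (1 : ℝ) ∈ sec (n := n + k) t L := by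
      intro t j hj w hw
      have h2 := hLr j.succ (by simp only [Fin.val_succ]; omega) _ hw
      rw [ecomb_reflect_succ] at h2
      exact h2
    refine logBM_fibre (n := n + k) h0 h1
      (fun F G H hF hG hH hFGH => pl_mul lam h0 h1 F G H hF hG hH hFGH)
      ?_ hKc hK hKs hKr' hLc hL hLs hLr'
    intro t s _ _ _ _
    exact ih _ _ (convex_sec hKc t) (isCompact_sec hK t) (sec_symm hKs hKr' t) (hKsec t)
      (h61_profK_sec hKA t)
      (convex_sec hLc s) (isCompact_sec hL s) (sec_symm hLs hLr' s) (hLsec s)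
      (h61_profK_sec hLB s)

/-- Pairs of bodies with `k` common coordinate reflections whose sections over the first `k`
coordinates are dilates of `A`, respectively of `B`: the inequality for `(A, B)` gives the
inequality for `(K, L)`. -/
theorem h61_logBM_profK_pair {n k : ℕ} {lam : ℝ} (h0 : 0 ≤ lam) (h1 : lam ≤ 1)
    {A B : Set (EuclideanSpace ℝ (Fin n))}
    (hA : IsCompact A) (hA0 : (0 : EuclideanSpace ℝ (Fin n)) ∈ A)
    (hB : IsCompact B) (hB0 : (0 : EuclideanSpace ℝ (Fin n)) ∈ B)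
    (hAB : volume A ^ (1 - lam) * volume B ^ lam ≤ volume (logSum lam A B))
    {K L : Set (EuclideanSpace ℝ (Fin (n + k)))}
    (hKc : Convex ℝ K) (hK : IsCompact K) (hKs : ∀ x ∈ K, -x ∈ K)
    (hKr : ∀ i : Fin (n + k), (i : ℕ) < k →
      ∀ x ∈ K, x - (2 * x i) • EuclideanSpace.single i (1 : ℝ) ∈ K)
    (hKA : H61ProfK n k A K)
    (hLc : Convex ℝ L) (hL : IsCompact L) (hLs : ∀ x ∈ L, -x ∈ L)
    (hLr : ∀ i : Fin (n + k), (i : ℕ) < k →
      ∀ x ∈ L, x - (2 * x i) • EuclideanSpace.single i (1 : ℝ) ∈ L)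
    (hLB : H61ProfK n k B L) :
    volume K ^ (1 - lam) * volume L ^ lam ≤ volume (logSum lam K L) := by
  rcases h0.eq_or_lt with h0' | h0'
  · subst h0'
    rw [sub_zero, ENNReal.rpow_one, ENNReal.rpow_zero, mul_one]
    exact measure_mono (subset_logSum_zero hK L)
  rcases h1.eq_or_lt with h1' | h1'
  · subst h1'
    rw [sub_self, ENNReal.rpow_one, ENNReal.rpow_zero, one_mul]
    exact measure_mono (subset_logSum_one K hL)
  exact h61_logBM_profK_aux h0' h1' hA hA0 hB hB0 hAB k K L hKc hK hKs hKr hKA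
    hLc hL hLs hLr hLB

/-- Pairs of bodies with `k` common coordinate reflections whose sections over the first `k`
coordinates are dilates of one common shape `A`; the section condition is written out. -/
theorem h61_logBM_profK {n k : ℕ} {lam : ℝ} (h0 : 0 ≤ lam) (h1 : lam ≤ 1)
    {A : Set (EuclideanSpace ℝ (Fin n))}
    (hA : IsCompact A) (hA0 : (0 : EuclideanSpace ℝ (Fin n)) ∈ A)
    {K L : Set (EuclideanSpace ℝ (Fin (n + k)))}
    (hKc : Convex ℝ K) (hK : IsCompact K) (hKs : ∀ x ∈ K, -x ∈ K)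
    (hKr : ∀ i : Fin (n + k), (i : ℕ) < k →
      ∀ x ∈ K, x - (2 * x i) • EuclideanSpace.single i (1 : ℝ) ∈ K)
    (hKA : ∀ x0 : EuclideanSpace ℝ (Fin (n + k)),
      (∀ x ∈ K, ∃ i : Fin (n + k), (i : ℕ) < k ∧ x i ≠ x0 i) ∨
      ∃ a : ℝ, 0 ≤ a ∧ ∀ x : EuclideanSpace ℝ (Fin (n + k)),
        (∀ i : Fin (n + k), (i : ℕ) < k → x i = x0 i) →
        (x ∈ K ↔ (WithLp.toLp 2 (fun j : Fin n => x ⟨k + j, by omega⟩) :
          EuclideanSpace ℝ (Fin n)) ∈ a • A))
    (hLc : Convex ℝ L) (hL : IsCompact L) (hLs : ∀ x ∈ L, -x ∈ L)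
    (hLr : ∀ i : Fin (n + k), (i : ℕ) < k →
      ∀ x ∈ L, x - (2 * x i) • EuclideanSpace.single i (1 : ℝ) ∈ L)
    (hLA : ∀ x0 : EuclideanSpace ℝ (Fin (n + k)),
      (∀ x ∈ L, ∃ i : Fin (n + k), (i : ℕ) < k ∧ x i ≠ x0 i) ∨
      ∃ b : ℝ, 0 ≤ b ∧ ∀ x : EuclideanSpace ℝ (Fin (n + k)),
        (∀ i : Fin (n + k), (i : ℕ) < k → x i = x0 i) →
        (x ∈ L ↔ (WithLp.toLp 2 (fun j : Fin n => x ⟨k + j, by omega⟩) :
          EuclideanSpace ℝ (Fin n)) ∈ b • A)) :
    volume K ^ (1 - lam) * volume L ^ lam ≤ volume (logSum lam K L) :=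
  h61_logBM_profK_pair h0 h1 hA hA0 hA hA0 (h61_logBM_self h0 h1 hA hA0)
    hKc hK hKs hKr hKA hLc hL hLs hLr hLA

end Vale.Agent.Lib.P227
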