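import Mathlib
import Vale.Agent.Lib.P227.Defs
import Vale.Agent.Lib.P227.helper61.ProfileK

/-!
# P227: the iterated profile theorem with the fibre condition stated through points of the body

The section condition of `ProfileK.lean` is restated as: for every point `x` of `K` there is
`a ≥ 0` such that the points `y` with the same first `k` coordinates as `x` lie in `K` exactly
when their last `n` coordinates lie in `a • A`. The index of the `j`-th of the last `n`
coordinates is written `Fin.cast (Nat.add_comm k n) (Fin.natAdd k j)` (its value is `k + j`).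
-/

namespace Vale.Agent.Lib.P227

open MeasureTheory Set
open scoped ENNReal Pointwise

/-- The fibre condition through points of the set gives the section condition `H61ProfK`. -/
theorem h61_profK_of_fib {n k : ℕ} {A : Set (EuclideanSpace ℝ (Fin n))}
    {K : Set (EuclideanSpace ℝ (Fin (n + k)))}
    (h : ∀ x ∈ K, ∃ a : ℝ, 0 ≤ a ∧ ∀ y : EuclideanSpace ℝ (Fin (n + k)),
      (∀ i : Fin (n + k), (i : ℕ) < k → y i = x i) →
      (y ∈ K ↔ (WithLp.toLp 2 (fun j : Fin n =>
        y (Fin.cast (Nat.add_comm k n) (Fin.natAdd k j))) : EuclideanSpace ℝ (Fin n)) ∈ a • A)) :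
    H61ProfK n k A K := by
  intro x0
  by_cases hex : ∃ x ∈ K, ∀ i : Fin (n + k), (i : ℕ) < k → x i = x0 i
  · right
    obtain ⟨x, hx, hxx0⟩ := hex
    obtain ⟨a, ha, h2⟩ := h x hx
    refine ⟨a, ha, fun y hy => ?_⟩
    exact h2 y (fun i hi => (hy i hi).trans (hxx0 i hi).symm)
  · left
    intro x hx
    by_contra hcon
    exact hex ⟨x, hx, fun i hi => by_contra fun hne => hcon ⟨i, hi, hne⟩⟩

/-- The iterated profile theorem: `K`, `L` origin-symmetric compact convex in `R^(n+k)`,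
invariant under the reflections of the first `k` coordinates, and through every point of `K`
(of `L`) the fibre over the first `k` coordinates is a nonnegative dilate of `A`. -/
theorem h61_logBM_profK_fib {n k : ℕ} {lam : ℝ} (h0 : 0 ≤ lam) (h1 : lam ≤ 1)
    {A : Set (EuclideanSpace ℝ (Fin n))}
    (hA : IsCompact A) (hA0 : (0 : EuclideanSpace ℝ (Fin n)) ∈ A)
    {K L : Set (EuclideanSpace ℝ (Fin (n + k)))}
    (hKc : Convex ℝ K) (hK : IsCompact K) (hKs : ∀ x ∈ K, -x ∈ K)
    (hKr : ∀ i : Fin (n + k), (i : ℕ) < k →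
      ∀ x ∈ K, x - (2 * x i) • EuclideanSpace.single i (1 : ℝ) ∈ K)
    (hKA : ∀ x ∈ K, ∃ a : ℝ, 0 ≤ a ∧ ∀ y : EuclideanSpace ℝ (Fin (n + k)),
      (∀ i : Fin (n + k), (i : ℕ) < k → y i = x i) →
      (y ∈ K ↔ (WithLp.toLp 2 (fun j : Fin n =>
        y (Fin.cast (Nat.add_comm k n) (Fin.natAdd k j))) : EuclideanSpace ℝ (Fin n)) ∈ a • A))
    (hLc : Convex ℝ L) (hL : IsCompact L) (hLs : ∀ x ∈ L, -x ∈ L)
    (hLr : ∀ i : Fin (n + k), (i : ℕ) < k →
      ∀ x ∈ L, x - (2 * x i) • EuclideanSpace.single i (1 : ℝ) ∈ L)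
    (hLA : ∀ x ∈ L, ∃ b : ℝ, 0 ≤ b ∧ ∀ y : EuclideanSpace ℝ (Fin (n + k)),
      (∀ i : Fin (n + k), (i : ℕ) < k → y i = x i) →
      (y ∈ L ↔ (WithLp.toLp 2 (fun j : Fin n =>
        y (Fin.cast (Nat.add_comm k n) (Fin.natAdd k j))) : EuclideanSpace ℝ (Fin n)) ∈ b • A)) :
    volume K ^ (1 - lam) * volume L ^ lam ≤ volume (logSum lam K L) :=
  h61_logBM_profK_pair h0 h1 hA hA0 hA hA0 (h61_logBM_self h0 h1 hA hA0)
    hKc hK hKs hKr (h61_profK_of_fib hKA) hLc hL hLs hLr (h61_profK_of_fib hLA)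

end Vale.Agent.Lib.P227
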